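import Vale.Agent.P235.H105.Glue
import Vale.Agent.P235.R2.H598.Clos

set_option autoImplicit false

/-!
# P235, K5 (b): a nonexpanding `L₁` map which is exact on a facial triangle

The lengths are split into three parts; in the part belonging to the pair `r, s` the centre of the
triangle is moved to the third vertex `q`.
-/

namespace Vale.Agent.P235.K5.H237

open Vale.Agent.P235 Filter Topology

variable {V : Type}

/-- Functions which are Lipschitz for the lengths `l` on the edges of `G`. -/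
def LipE (G : SimpleGraph V) (l : V → V → ℝ) (f : V → ℝ) : Prop :=
  ∀ u v, G.Adj u v → |f u - f v| ≤ l u v

/-- The path metric of the lengths `l`, in its dual form. -/
noncomputable def dual (G : SimpleGraph V) (l : V → V → ℝ) (x y : V) : ℝ :=
  sSup {t | ∃ f, LipE G l f ∧ t = |f x - f y|}

section dual

variable {G : SimpleGraph V} {d l : V → V → ℝ}

lemma lip_le (hG : Gen G d) (hl : ∀ u v, G.Adj u v → l u v ≤ d u v) {f : V → ℝ}
    (hf : LipE G l f) (x y : V) : |f x - f y| ≤ d x y :=
  hG f (fun u v h => (hf u v h).trans (hl u v h)) x y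

lemma le_dual (hG : Gen G d) (hl : ∀ u v, G.Adj u v → l u v ≤ d u v) {f : V → ℝ}
    (hf : LipE G l f) (x y : V) : |f x - f y| ≤ dual G l x y := by
  apply le_csSup
  · refine ⟨d x y, ?_⟩
    rintro t ⟨g, hg, rfl⟩
    exact lip_le hG hl hg x y
  · exact ⟨f, hf, rfl⟩

lemma dual_le (h0 : ∀ u v, G.Adj u v → 0 ≤ l u v) {x y : V} {t : ℝ}
    (h : ∀ f, LipE G l f → |f x - f y| ≤ t) : dual G l x y ≤ t := by
  apply csSup_le
  · refine ⟨_, fun _ => 0, fun u v huv => ?_, rfl⟩
    rw [sub_zero, abs_zero]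
    exact h0 u v huv
  · rintro _ ⟨f, hf, rfl⟩
    exact h f hf

lemma dual_isMet (hd : IsMet d) (hG : Gen G d) (hl : ∀ u v, G.Adj u v → l u v ≤ d u v)
    {δ : ℝ} (hδ : 0 < δ) (h0 : ∀ u v, G.Adj u v → δ * d u v ≤ l u v) : IsMet (dual G l) := by
  have h0' : ∀ u v, G.Adj u v → 0 ≤ l u v := fun u v h =>
    (mul_nonneg hδ.le (hd.nonneg u v)).trans (h0 u v h)
  have hn : ∀ x y, 0 ≤ dual G l x y := by
    intro x y
    have hz : LipE G l fun _ => 0 := fun u v huv => by
      rw [sub_zero, abs_zero]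
      exact h0' u v huv
    exact (abs_nonneg _).trans (le_dual hG hl hz x y)
  constructor
  · intro x
    refine le_antisymm (dual_le h0' fun f _ => ?_) (hn x x)
    rw [sub_self, abs_zero]
  · intro x y hxy
    have hf : LipE G l fun z => δ * d z x := by
      intro u v huv
      rw [← mul_sub, abs_mul, abs_of_pos hδ]
      exact (mul_le_mul_of_nonneg_left (abs_dist_sub hd u v x) hδ.le).trans (h0 u v huv)
    refine lt_of_lt_of_le ?_ (le_dual hG hl hf x y)
    rw [hd.self, mul_zero, zero_sub, abs_neg, abs_mul, abs_of_pos hδ]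
    have h1 := hd.pos y x hxy.symm
    rw [abs_of_pos h1]
    exact mul_pos hδ h1
  · intro x y
    apply le_antisymm
    · refine dual_le h0' fun f hf => ?_
      rw [abs_sub_comm]
      exact le_dual hG hl hf y x
    · refine dual_le h0' fun f hf => ?_
      rw [abs_sub_comm]
      exact le_dual hG hl hf x y
  · intro x y z
    refine dual_le h0' fun f hf => ?_
    have h1 := le_dual hG hl hf x y
    have h2 := le_dual hG hl hf y z
    have h3 := abs_sub_le (f x) (f y) (f z)
    linarith

lemma dual_gen (hG : Gen G d) (hl : ∀ u v, G.Adj u v → l u v ≤ d u v)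
    (h0 : ∀ u v, G.Adj u v → 0 ≤ l u v) : Gen G (dual G l) := by
  intro f hf x y
  refine le_dual hG hl (fun u v huv => (hf u v huv).trans ?_) x y
  exact dual_le h0 fun g hg => hg u v huv

end dual

/-- the truncated distance from `r` -/
noncomputable def mm (d : V → V → ℝ) (r : V) (A : ℝ) (z : V) : ℝ := min (d z r) A

/-- its difference -/
noncomputable def tt (d : V → V → ℝ) (r : V) (A : ℝ) (u v : V) : ℝ :=
  |mm d r A u - mm d r A v|

/-- the distance from the ball -/
noncomputable def gg (d : V → V → ℝ) (r : V) (A : ℝ) (z : V) : ℝ := max (d z r - A) 0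

/-- the metric with the ball contracted -/
noncomputable def rr (d : V → V → ℝ) (r : V) (A : ℝ) (u v : V) : ℝ :=
  min (d u v) (gg d r A u + gg d r A v)

section ball

variable {d : V → V → ℝ}

lemma tt_nonneg (r : V) (A : ℝ) (u v : V) : 0 ≤ tt d r A u v := abs_nonneg _

lemma tt_le (hd : IsMet d) (r : V) (A : ℝ) (u v : V) : tt d r A u v ≤ d u v := by
  have h1 := abs_le.1 (abs_dist_sub hd u v r)
  unfold tt mm
  rw [abs_le]
  rcases min_cases (d u r) A with ⟨e1, h2⟩ | ⟨e1, h2⟩ <;>
    rcases min_cases (d v r) A with ⟨e3, h3⟩ | ⟨e3, h3⟩ <;>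
    rw [e1, e3] <;> constructor <;> linarith [hd.nonneg u v, h1.1, h1.2]

lemma gg_nonneg (r : V) (A : ℝ) (z : V) : 0 ≤ gg d r A z := le_max_right _ _

lemma gg_le (hd : IsMet d) (r : V) (A : ℝ) (u v : V) : gg d r A u ≤ gg d r A v + d u v := by
  have h1 := hd.tri u v r
  have h2 : d v r - A ≤ gg d r A v := le_max_left _ _
  apply max_le
  · linarith
  · linarith [hd.nonneg u v, gg_nonneg (d := d) r A v]

lemma rr_le (hd : IsMet d) (r : V) (A : ℝ) (u v : V) :
    rr d r A u v ≤ d u v - tt d r A u v := by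
  have h1 := abs_le.1 (abs_dist_sub hd u v r)
  have h2 := tt_le hd r A u v
  have h4 : rr d r A u v ≤ d u v := min_le_left _ _
  have h5 : rr d r A u v ≤ gg d r A u + gg d r A v := min_le_right _ _
  rcases le_total (d u r) A with hu | hu
  · rcases le_total (d v r) A with hv | hv
    · have e1 : gg d r A u = 0 := max_eq_right (by linarith)
      have e2 : gg d r A v = 0 := max_eq_right (by linarith)
      linarith
    · have e1 : gg d r A u = 0 := max_eq_right (by linarith)
      have e2 : gg d r A v = d v r - A := max_eq_left (by linarith)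
      have e3 : tt d r A u v = A - d u r := by
        unfold tt mm
        rw [min_eq_left hu, min_eq_right hv, abs_of_nonpos (by linarith)]
        ring
      linarith [h1.1, h1.2]
  · rcases le_total (d v r) A with hv | hv
    · have e1 : gg d r A v = 0 := max_eq_right (by linarith)
      have e2 : gg d r A u = d u r - A := max_eq_left (by linarith)
      have e3 : tt d r A u v = A - d v r := by
        unfold tt mm
        rw [min_eq_right hu, min_eq_left hv, abs_of_nonneg (by linarith)]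
      linarith [h1.1, h1.2]
    · have e3 : tt d r A u v = 0 := by
        unfold tt mm
        rw [min_eq_right hu, min_eq_right hv, sub_self, abs_zero]
      linarith

lemma rr_symm (hd : IsMet d) (r : V) (A : ℝ) (u v : V) : rr d r A u v = rr d r A v u := by
  unfold rr
  rw [hd.symm u v, add_comm (gg d r A u)]

lemma rr_self (hd : IsMet d) (r : V) (A : ℝ) (u : V) : rr d r A u u = 0 := by
  unfold rr
  rw [hd.self]
  exact min_eq_left (by linarith [gg_nonneg (d := d) r A u])

lemma rr_nonneg (hd : IsMet d) (r : V) (A : ℝ) (u v : V) : 0 ≤ rr d r A u v :=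
  le_min (hd.nonneg u v) (add_nonneg (gg_nonneg r A u) (gg_nonneg r A v))

lemma rr_tri (hd : IsMet d) (r : V) (A : ℝ) (x y z : V) :
    rr d r A x z ≤ rr d r A x y + rr d r A y z := by
  have h1 : rr d r A x z ≤ d x z := min_le_left _ _
  have h2 : rr d r A x z ≤ gg d r A x + gg d r A z := min_le_right _ _
  have h3 := hd.tri x y z
  have h4 := gg_le hd r A x y
  have h5 := gg_le hd r A z y
  rw [hd.symm z y] at h5
  have h6 := gg_nonneg (d := d) r A y
  have e1 : rr d r A x y = min (d x y) (gg d r A x + gg d r A y) := rfl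
  have e2 : rr d r A y z = min (d y z) (gg d r A y + gg d r A z) := rfl
  rcases min_cases (d x y) (gg d r A x + gg d r A y) with ⟨a1, _⟩ | ⟨a1, _⟩ <;>
    rcases min_cases (d y z) (gg d r A y + gg d r A z) with ⟨a2, _⟩ | ⟨a2, _⟩ <;>
    rw [e1, e2, a1, a2] <;> linarith

lemma rr_lip (hd : IsMet d) (r : V) (A : ℝ) (x u v : V) :
    |rr d r A u x - rr d r A v x| ≤ rr d r A u v := by
  have h1 := rr_tri hd r A u v x
  have h2 := rr_tri hd r A v u x
  rw [rr_symm hd r A v u] at h2
  rw [abs_le]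
  constructor <;> linarith

/-- the three balls are disjoint -/
lemma three (hd : IsMet d) {a b c : V} {P Q S : ℝ} (hab : P + Q ≤ d a b) (hac : P + S ≤ d a c)
    (hbc : Q + S ≤ d b c) (u v : V) :
    tt d a P u v + tt d b Q u v + tt d c S u v ≤ d u v := by
  have ua := abs_le.1 (abs_dist_sub hd u v a)
  have ub := abs_le.1 (abs_dist_sub hd u v b)
  have uc := abs_le.1 (abs_dist_sub hd u v c)
  have h0 := hd.nonneg u v
  have key : ∀ z, P + Q ≤ d z a + d z b ∧ P + S ≤ d z a + d z c ∧ Q + S ≤ d z b + d z c := by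
    intro z
    refine ⟨?_, ?_, ?_⟩
    · have := hd.tri a z b
      rw [hd.symm a z] at this
      linarith
    · have := hd.tri a z c
      rw [hd.symm a z] at this
      linarith
    · have := hd.tri b z c
      rw [hd.symm b z] at this
      linarith
  have cases : ∀ z, (mm d a P z = P ∧ mm d b Q z = Q ∧ mm d c S z = S ∧
        P ≤ d z a ∧ Q ≤ d z b ∧ S ≤ d z c) ∨
      (mm d a P z = d z a ∧ mm d b Q z = Q ∧ mm d c S z = S ∧
        d z a ≤ P ∧ Q ≤ d z b ∧ S ≤ d z c) ∨
      (mm d a P z = P ∧ mm d b Q z = d z b ∧ mm d c S z = S ∧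
        P ≤ d z a ∧ d z b ≤ Q ∧ S ≤ d z c) ∨
      (mm d a P z = P ∧ mm d b Q z = Q ∧ mm d c S z = d z c ∧
        P ≤ d z a ∧ Q ≤ d z b ∧ d z c ≤ S) := by
    intro z
    obtain ⟨k1, k2, k3⟩ := key z
    rcases le_total P (d z a) with h | h
    · rcases le_total Q (d z b) with h' | h'
      · rcases le_total S (d z c) with h'' | h''
        · exact Or.inl ⟨min_eq_right h, min_eq_right h', min_eq_right h'', h, h', h''⟩
        · exact Or.inr (Or.inr (Or.inr
            ⟨min_eq_right h, min_eq_right h', min_eq_left h'', h, h', h''⟩))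
      · have h'' : S ≤ d z c := by linarith
        exact Or.inr (Or.inr (Or.inl
          ⟨min_eq_right h, min_eq_left h', min_eq_right h'', h, h', h''⟩))
    · have h' : Q ≤ d z b := by linarith
      have h'' : S ≤ d z c := by linarith
      exact Or.inr (Or.inl ⟨min_eq_left h, min_eq_right h', min_eq_right h'', h, h', h''⟩)
  have habs : ∀ α β γ D : ℝ, α + β + γ ≤ D → α + β - γ ≤ D → α - β + γ ≤ D → α - β - γ ≤ D →
      -α + β + γ ≤ D → -α + β - γ ≤ D → -α - β + γ ≤ D → -α - β - γ ≤ D →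
      |α| + |β| + |γ| ≤ D := by
    intro α β γ D h1 h2 h3 h4 h5 h6 h7 h8
    rcases abs_cases α with ⟨x1, _⟩ | ⟨x1, _⟩ <;>
      rcases abs_cases β with ⟨x2, _⟩ | ⟨x2, _⟩ <;>
      rcases abs_cases γ with ⟨x3, _⟩ | ⟨x3, _⟩ <;> rw [x1, x2, x3] <;> linarith
  unfold tt
  obtain ⟨ua1, ua2⟩ := ua
  obtain ⟨ub1, ub2⟩ := ub
  obtain ⟨uc1, uc2⟩ := uc
  have k1 := hd.tri a u b
  have k2 := hd.tri a u c
  have k3 := hd.tri b u c
  have l1 := hd.tri u v a
  have l2 := hd.tri u v b
  have l3 := hd.tri u v c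
  have l4 := hd.tri v u a
  have l5 := hd.tri v u b
  have l6 := hd.tri v u c
  rw [hd.symm v u] at l4 l5 l6
  rw [hd.symm a u] at k1 k2
  rw [hd.symm b u] at k3
  rcases cases u with ⟨a1, b1, c1, a2, b2, c2⟩ | ⟨a1, b1, c1, a2, b2, c2⟩ |
      ⟨a1, b1, c1, a2, b2, c2⟩ | ⟨a1, b1, c1, a2, b2, c2⟩ <;>
    rcases cases v with ⟨a3, b3, c3, a4, b4, c4⟩ | ⟨a3, b3, c3, a4, b4, c4⟩ |
      ⟨a3, b3, c3, a4, b4, c4⟩ | ⟨a3, b3, c3, a4, b4, c4⟩ <;>
    rw [a1, b1, c1, a3, b3, c3] <;> apply habs <;> linarith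

end ball

/-- One of the three maps. -/
lemma one {G : SimpleGraph V} {d : V → V → ℝ} {c : ℝ} (hc : 0 < c) (hE : EdgeExact G c)
    (hd : IsMet d) (hG : Gen G d) {r s q : V} (hrs : G.Adj r s) {A B C ε : ℝ}
    (hA : A ≤ d r s) (hB : B ≤ d r s) (hA0 : 0 ≤ A) (hB0 : 0 ≤ B)
    (hT : ∀ u v, tt d r A u v + tt d s B u v + tt d q C u v ≤ d u v)
    (hε : 0 < ε) (hε1 : ε < 1) :
    ∃ F : V → V → ℝ, IsL1 F ∧ (∀ u v, G.Adj u v → F u v ≤ (1 - ε) *
      ((d u v - tt d r A u v - tt d s B u v - tt d q C u v) / 3 +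
        (tt d r A u v + tt d s B u v) / 2) + ε / 3 * d u v) ∧
      (1 - ε) * ((A + B) / 2) ≤ F r s ∧ ∀ x y, c / 3 * rr d q C x y ≤ F x y := by
  obtain ⟨l, hl⟩ : ∃ l : V → V → ℝ, l = fun u v => (1 - ε) *
      ((d u v - tt d r A u v - tt d s B u v - tt d q C u v) / 3 +
        (tt d r A u v + tt d s B u v) / 2) + ε / 3 * d u v := ⟨_, rfl⟩
  have hlu : ∀ u v, l u v = (1 - ε) *
      ((d u v - tt d r A u v - tt d s B u v - tt d q C u v) / 3 +
        (tt d r A u v + tt d s B u v) / 2) + ε / 3 * d u v := fun u v => by rw [hl]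
  have hε0 : 0 ≤ 1 - ε := by linarith
  have hmid : ∀ u v, (d u v - tt d q C u v) / 3 ≤
      (d u v - tt d r A u v - tt d s B u v - tt d q C u v) / 3 +
        (tt d r A u v + tt d s B u v) / 2 := by
    intro u v
    linarith [tt_nonneg (d := d) r A u v, tt_nonneg (d := d) s B u v]
  have hle : ∀ u v, G.Adj u v → l u v ≤ d u v := by
    intro u v _
    rw [hlu]
    have h1 := hT u v
    have h2 := tt_nonneg (d := d) r A u v
    have h3 := tt_nonneg (d := d) s B u v
    have h4 := tt_nonneg (d := d) q C u v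
    have h5 : (1 - ε) * ((d u v - tt d r A u v - tt d s B u v - tt d q C u v) / 3 +
        (tt d r A u v + tt d s B u v) / 2) ≤ (1 - ε) * d u v :=
      mul_le_mul_of_nonneg_left (by linarith) hε0
    have h6 : ε / 3 * d u v ≤ ε * d u v :=
      mul_le_mul_of_nonneg_right (by linarith) (hd.nonneg u v)
    have h7 : (1 - ε) * d u v = d u v - ε * d u v := by ring
    linarith
  have hlow : ∀ u v, G.Adj u v → ε / 3 * d u v ≤ l u v := by
    intro u v _
    rw [hlu]
    have h1 := hT u v
    have h4 := tt_nonneg (d := d) q C u v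
    have h5 : 0 ≤ (d u v - tt d q C u v) / 3 := by
      linarith [tt_nonneg (d := d) r A u v, tt_nonneg (d := d) s B u v]
    have h6 := mul_nonneg hε0 (h5.trans (hmid u v))
    linarith
  have hmet := dual_isMet hd hG hle (δ := ε / 3) (by positivity) hlow
  have h0 : ∀ u v, G.Adj u v → 0 ≤ l u v := fun u v h =>
    (mul_nonneg (by positivity) (hd.nonneg u v)).trans (hlow u v h)
  have hgen := dual_gen hG hle h0
  obtain ⟨F, hF1, hF2, hF3, hF4⟩ := hE (dual G l) hmet hgen r s hrs
  refine ⟨F, hF1, ?_, ?_, ?_⟩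
  · intro u v huv
    refine (hF4 u v).trans ?_
    rw [← hlu]
    exact dual_le h0 fun f hf => hf u v huv
  · rw [hF2]
    have hf : LipE G l fun z => (1 - ε) * ((mm d r A z - mm d s B z) / 2) := by
      intro u v huv
      rw [hlu, ← mul_sub, abs_mul, abs_of_nonneg hε0]
      have h1 : |(mm d r A u - mm d s B u) / 2 - (mm d r A v - mm d s B v) / 2| ≤
          (tt d r A u v + tt d s B u v) / 2 := by
        have e1 : (mm d r A u - mm d s B u) / 2 - (mm d r A v - mm d s B v) / 2 =
            (mm d r A u - mm d r A v) / 2 - (mm d s B u - mm d s B v) / 2 := by ring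
        rw [e1]
        refine (abs_sub _ _).trans ?_
        rw [abs_div, abs_div, abs_two]
        unfold tt
        linarith
      have h2 : (tt d r A u v + tt d s B u v) / 2 ≤
          (d u v - tt d r A u v - tt d s B u v - tt d q C u v) / 3 +
            (tt d r A u v + tt d s B u v) / 2 := by
        linarith [hT u v]
      have h3 := mul_le_mul_of_nonneg_left (h1.trans h2) hε0
      have h4 : 0 ≤ ε / 3 * d u v := mul_nonneg (by positivity) (hd.nonneg u v)
      linarith
    have h1 := le_dual hG hle hf r s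
    have e1 : mm d r A r = 0 := by
      unfold mm
      rw [hd.self]
      exact min_eq_left hA0
    have e2 : mm d s B s = 0 := by
      unfold mm
      rw [hd.self]
      exact min_eq_left hB0
    have e3 : mm d s B r = B := min_eq_right hB
    have e4 : mm d r A s = A := by
      unfold mm
      rw [hd.symm s r]
      exact min_eq_right hA
    simp only [e1, e2, e3, e4] at h1
    have h2 := (neg_le_abs _).trans h1
    have e5 : -((1 - ε) * ((0 - B) / 2) - (1 - ε) * ((A - 0) / 2)) = (1 - ε) * ((A + B) / 2) := by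
      ring
    rw [e5] at h2
    exact h2
  · intro x y
    have hf : LipE G l fun z => rr d q C z y / 3 := by
      intro u v huv
      rw [hlu, ← sub_div, abs_div, abs_of_pos (show (0 : ℝ) < 3 by norm_num)]
      have h1 := rr_lip hd q C y u v
      have h2 := rr_le hd q C u v
      have h3 := hmid u v
      have h4 := mul_le_mul_of_nonneg_left h3 hε0
      have h5 : (1 - ε) * ((d u v - tt d q C u v) / 3) = (d u v - tt d q C u v) / 3 -
          ε / 3 * d u v + ε / 3 * tt d q C u v := by ring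
      have h6 : 0 ≤ ε / 3 * tt d q C u v := mul_nonneg (by positivity) (tt_nonneg q C u v)
      linarith
    have h1 := le_dual hG hle hf x y
    simp only [rr_self hd, zero_div, sub_zero] at h1
    rw [abs_of_nonneg (div_nonneg (rr_nonneg hd q C x y) (by norm_num))] at h1
    have h2 := hF3 x y
    have h3 := mul_le_mul_of_nonneg_left h1 hc.le
    have h4 : c * (rr d q C x y / 3) = c / 3 * rr d q C x y := by ring
    linarith

/-- The three maps together, with an error `ε` on the triangle. -/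
lemma step {G : SimpleGraph V} {d : V → V → ℝ} {c : ℝ} (hc : 0 < c) (hE : EdgeExact G c)
    (hd : IsMet d) (hG : Gen G d) {a b e : V} (hab : G.Adj a b) (hae : G.Adj a e)
    (hbe : G.Adj b e) {P Q S : ℝ} (eab : P + Q = d a b) (eae : P + S = d a e)
    (ebe : Q + S = d b e) (hP : 0 ≤ P) (hQ : 0 ≤ Q) (hS : 0 ≤ S)
    (hC : ∀ x y t, d x a ≤ P + t → d x b ≤ Q + t → d x e ≤ S + t → d y a ≤ P + t →
      d y b ≤ Q + t → d y e ≤ S + t → d x y ≤ 2 * t)
    {ε : ℝ} (hε : 0 < ε) (hε1 : ε < 1) :
    ∃ F : V → V → ℝ, IsL1 F ∧ (∀ x y, F x y ≤ d x y) ∧ (∀ x y, c / 6 * d x y ≤ F x y) ∧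
      d a b - ε * (3 * (P + Q + S)) ≤ F a b ∧ d a e - ε * (3 * (P + Q + S)) ≤ F a e ∧
      d b e - ε * (3 * (P + Q + S)) ≤ F b e := by
  have hT := three hd eab.le eae.le ebe.le
  obtain ⟨F1, hF1, e1, x1, l1⟩ := one hc hE hd hG (q := e) (C := S) hab (A := P) (B := Q)
    (by linarith) (by linarith) hP hQ (fun u v => hT u v) hε hε1
  obtain ⟨F2, hF2, e2, x2, l2⟩ := one hc hE hd hG (q := b) (C := Q) hae (A := P) (B := S)
    (by linarith) (by linarith) hP hS (fun u v => by linarith [hT u v]) hε hε1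
  obtain ⟨F3, hF3, e3, x3, l3⟩ := one hc hE hd hG (q := a) (C := P) hbe (A := Q) (B := S)
    (by linarith) (by linarith) hQ hS (fun u v => by linarith [hT u v]) hε hε1
  have hF : IsL1 (fun x y => F1 x y + F2 x y + F3 x y) := (hF1.add hF2).add hF3
  have hFd : ∀ x y, F1 x y + F2 x y + F3 x y ≤ d x y := by
    intro x y
    have h1 : ∀ u v, G.Adj u v → F1 u v + F2 u v + F3 u v ≤ d u v := by
      intro u v huv
      have h1 := e1 u v huv
      have h2 := e2 u v huv
      have h3 := e3 u v huv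
      nlinarith [h1, h2, h3]
    have h2 := hG (fun z => F1 z y + F2 z y + F3 z y) (fun u v huv =>
      (hF.abs_sub_le u v y).trans (h1 u v huv)) x y
    simp only [hF1.self, hF2.self, hF3.self, add_zero, sub_zero] at h2
    exact (le_abs_self _).trans h2
  refine ⟨_, hF, hFd, ?_, ?_, ?_, ?_⟩
  · intro x y
    have n1 := rr_nonneg hd e S x y
    have n2 := rr_nonneg hd b Q x y
    have n3 := rr_nonneg hd a P x y
    have hlow : c / 3 * (rr d a P x y + rr d b Q x y + rr d e S x y) ≤
        F1 x y + F2 x y + F3 x y := by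
      have h1 := l1 x y
      have h2 := l2 x y
      have h3 := l3 x y
      have h4 : c / 3 * (rr d a P x y + rr d b Q x y + rr d e S x y) =
        c / 3 * rr d a P x y + c / 3 * rr d b Q x y + c / 3 * rr d e S x y := by ring
      linarith
    have key : d x y ≤ 2 * (rr d a P x y + rr d b Q x y + rr d e S x y) := by
      rcases le_total (d x y) (gg d a P x + gg d a P y) with h1 | h1
      · have h2 : rr d a P x y = d x y := min_eq_left h1
        linarith [hd.nonneg x y]
      rcases le_total (d x y) (gg d b Q x + gg d b Q y) with h2 | h2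
      · have h3 : rr d b Q x y = d x y := min_eq_left h2
        linarith [hd.nonneg x y]
      rcases le_total (d x y) (gg d e S x + gg d e S y) with h3 | h3
      · have h4 : rr d e S x y = d x y := min_eq_left h3
        linarith [hd.nonneg x y]
      have r1 : rr d a P x y = gg d a P x + gg d a P y := min_eq_right h1
      have r2 : rr d b Q x y = gg d b Q x + gg d b Q y := min_eq_right h2
      have r3 : rr d e S x y = gg d e S x + gg d e S y := min_eq_right h3
      have g1 : ∀ z, d z a - P ≤ gg d a P z := fun z => le_max_left _ _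
      have g2 : ∀ z, d z b - Q ≤ gg d b Q z := fun z => le_max_left _ _
      have g3 : ∀ z, d z e - S ≤ gg d e S z := fun z => le_max_left _ _
      have p1 := gg_nonneg (d := d) a P x
      have p2 := gg_nonneg (d := d) a P y
      have p3 := gg_nonneg (d := d) b Q x
      have p4 := gg_nonneg (d := d) b Q y
      have p5 := gg_nonneg (d := d) e S x
      have p6 := gg_nonneg (d := d) e S y
      exact hC x y _ (by linarith [g1 x]) (by linarith [g2 x]) (by linarith [g3 x])
        (by linarith [g1 y]) (by linarith [g2 y]) (by linarith [g3 y])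
    have h5 := mul_le_mul_of_nonneg_left key (show 0 ≤ c / 6 by positivity)
    have h6 : c / 6 * (2 * (rr d a P x y + rr d b Q x y + rr d e S x y)) =
      c / 3 * (rr d a P x y + rr d b Q x y + rr d e S x y) := by ring
    linarith
  all_goals
    have a1 := hFd a b
    have a2 := hFd a e
    have a3 := hFd b e
    have t1 := hF1.tri a e b
    have t2 := hF2.tri a b e
    have t3 := hF3.tri b a e
    rw [hF1.symm e b] at t1
    rw [hF3.symm b a] at t3
    have s1 : (1 - ε) * ((P + Q) / 2) = (P + Q) / 2 - (ε * P + ε * Q) / 2 := by ring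
    have s2 : (1 - ε) * ((P + S) / 2) = (P + S) / 2 - (ε * P + ε * S) / 2 := by ring
    have s3 : (1 - ε) * ((Q + S) / 2) = (Q + S) / 2 - (ε * Q + ε * S) / 2 := by ring
    have s4 : ε * (3 * (P + Q + S)) = 3 * (ε * P) + 3 * (ε * Q) + 3 * (ε * S) := by ring
    have m1 := mul_nonneg hε.le hP
    have m2 := mul_nonneg hε.le hQ
    have m3 := mul_nonneg hε.le hS
    rw [s1] at x1
    rw [s2] at x2
    rw [s3] at x3
    rw [s4]
    linarith

/-- A limit of `L₁` semimetrics, with a varying lower bound. -/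
theorem isL1_lim [Finite V] {d lo : V → V → ℝ} {L : ℕ → V → V → ℝ}
    (hL : ∀ x y, Tendsto (fun n => L n x y) atTop (𝓝 (lo x y)))
    (h : ∀ n : ℕ, ∃ F : V → V → ℝ, IsL1 F ∧ (∀ x y, F x y ≤ d x y) ∧ ∀ x y, L n x y ≤ F x y) :
    ∃ F : V → V → ℝ, IsL1 F ∧ (∀ x y, F x y ≤ d x y) ∧ ∀ x y, lo x y ≤ F x y := by
  classical
  have : Fintype V := Fintype.ofFinite V
  set M : ℝ := ∑ x, ∑ y, |d x y| with hM
  have hM0 : 0 ≤ M := Finset.sum_nonneg fun x _ => Finset.sum_nonneg fun y _ => abs_nonneg _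
  have hdM : ∀ x y, d x y ≤ M := by
    intro x y
    calc d x y ≤ |d x y| := le_abs_self _
      _ ≤ ∑ y, |d x y| := Finset.single_le_sum (f := fun y => |d x y|)
          (fun y _ => abs_nonneg _) (Finset.mem_univ y)
      _ ≤ M := Finset.single_le_sum (f := fun x => ∑ y, |d x y|)
          (fun x _ => Finset.sum_nonneg fun y _ => abs_nonneg _) (Finset.mem_univ x)
  choose F hF hFd hFlo using h
  have hw := fun n => R2.H598.exists_weights (hF n) hM0 (fun x y => (hFd n x y).trans (hdM x y))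
  choose w hw0 hwM hwF using hw
  have hcomp : IsCompact (Set.Icc (fun _ => 0 : (V → Bool) → ℝ) (fun _ => M)) := isCompact_Icc
  obtain ⟨v, hv, φ, hφ, hlim⟩ := hcomp.tendsto_subseq (x := w)
    (fun n => ⟨fun b => hw0 n b, fun b => hwM n b⟩)
  have hlimb : ∀ b, Tendsto (fun n => w (φ n) b) atTop (𝓝 (v b)) := by
    intro b
    exact (tendsto_pi_nhds.1 hlim) b
  have hlimF : ∀ x y, Tendsto (fun n => F (φ n) x y) atTop
      (𝓝 (∑ b, v b * (if b x = b y then 0 else 1))) := by
    intro x y
    have h1 : (fun n => F (φ n) x y) =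
        fun n => ∑ b, w (φ n) b * (if b x = b y then 0 else 1) := by
      funext n; exact hwF (φ n) x y
    rw [h1]
    exact tendsto_finsetSum _ fun b _ => (hlimb b).mul_const _
  refine ⟨fun x y => ∑ b, v b * (if b x = b y then 0 else 1), ?_, ?_, ?_⟩
  · exact ⟨V → Bool, inferInstance, v, fun b => b, fun b => hv.1 b, fun x y => rfl⟩
  · intro x y
    exact le_of_tendsto' (hlimF x y) fun n => hFd (φ n) x y
  · intro x y
    have h2 := (hL x y).comp hφ.tendsto_atTop
    exact le_of_tendsto_of_tendsto' h2 (hlimF x y) fun n => hFlo (φ n) x y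

/-- The triangle, with named vertices. -/
theorem tri_abe [Finite V] {G : SimpleGraph V} {d : V → V → ℝ} {c : ℝ} (hc : 0 < c)
    (hE : EdgeExact G c) (hd : IsMet d) (hG : Gen G d) {a b e : V} (hab : G.Adj a b)
    (hae : G.Adj a e) (hbe : G.Adj b e) {P Q S : ℝ} (eab : P + Q = d a b)
    (eae : P + S = d a e) (ebe : Q + S = d b e)
    (hC : ∀ x y t, d x a ≤ P + t → d x b ≤ Q + t → d x e ≤ S + t → d y a ≤ P + t →
      d y b ≤ Q + t → d y e ≤ S + t → d x y ≤ 2 * t) :
    ∃ F : V → V → ℝ, IsL1 F ∧ F a b = d a b ∧ F a e = d a e ∧ F b e = d b e ∧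
      (∀ x y, c / 6 * d x y ≤ F x y) ∧ ∀ x y, F x y ≤ d x y := by
  classical
  have hP : 0 ≤ P := by
    have := hd.tri b a e
    rw [hd.symm b a] at this
    linarith
  have hQ : 0 ≤ Q := by
    have := hd.tri a b e
    linarith
  have hS : 0 ≤ S := by
    have := hd.tri a e b
    rw [hd.symm e b] at this
    linarith
  set K : ℝ := 3 * (P + Q + S) with hK
  have hK0 : 0 ≤ K := by positivity
  let J : V → V → ℝ := fun x y => if (x = a ∧ y = b) ∨ (x = a ∧ y = e) ∨ (x = b ∧ y = e) then
    d x y else 0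
  have hlim : ∀ x y, Tendsto (fun n : ℕ => max (c / 6 * d x y)
      (J x y - 1 / ((n : ℝ) + 1) / 2 * K)) atTop (𝓝 (max (c / 6 * d x y) (J x y))) := by
    intro x y
    have h1 : Tendsto (fun n : ℕ => J x y - 1 / ((n : ℝ) + 1) / 2 * K) atTop
        (𝓝 (J x y - 0 / 2 * K)) :=
      tendsto_const_nhds.sub ((tendsto_one_div_add_atTop_nhds_zero_nat.div_const 2).mul_const K)
    rw [zero_div, zero_mul, sub_zero] at h1
    exact tendsto_const_nhds.max h1
  obtain ⟨F, hF, hFd, hFl⟩ := isL1_lim (d := d) hlim (by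
    intro n
    have hn : (0 : ℝ) < (n : ℝ) + 1 := by positivity
    have h1 : 0 < 1 / ((n : ℝ) + 1) / 2 := by positivity
    have h2 : 1 / ((n : ℝ) + 1) / 2 < 1 := by
      have h3 : 1 / ((n : ℝ) + 1) ≤ 1 := by
        rw [div_le_one hn]
        have : (0 : ℝ) ≤ n := Nat.cast_nonneg n
        linarith
      linarith
    obtain ⟨F, hF, hFd, hFl, f1, f2, f3⟩ := step hc hE hd hG hab hae hbe eab eae ebe hP hQ hS hC
      h1 h2
    refine ⟨F, hF, hFd, fun x y => max_le (hFl x y) ?_⟩
    have h4 := mul_nonneg h1.le hK0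
    simp only [J]
    split_ifs with hJ
    · rcases hJ with ⟨rfl, rfl⟩ | ⟨rfl, rfl⟩ | ⟨rfl, rfl⟩
      · exact f1
      · exact f2
      · exact f3
    · linarith [hF.nonneg x y])
  refine ⟨F, hF, ?_, ?_, ?_, fun x y => (le_max_left _ _).trans (hFl x y), hFd⟩
  · apply le_antisymm (hFd a b)
    have h1 : J a b ≤ F a b := (le_max_right _ _).trans (hFl a b)
    have h2 : J a b = d a b := if_pos (Or.inl ⟨rfl, rfl⟩)
    rwa [h2] at h1
  · apply le_antisymm (hFd a e)
    have h1 : J a e ≤ F a e := (le_max_right _ _).trans (hFl a e)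
    have h2 : J a e = d a e := if_pos (Or.inr (Or.inl ⟨rfl, rfl⟩))
    rwa [h2] at h1
  · apply le_antisymm (hFd b e)
    have h1 : J b e ≤ F b e := (le_max_right _ _).trans (hFl b e)
    have h2 : J b e = d b e := if_pos (Or.inr (Or.inr ⟨rfl, rfl⟩))
    rwa [h2] at h1

/-- The Gromov product of the other two points at `R i`. -/
noncomputable def gp (d : V → V → ℝ) (R : Fin 3 → V) (i : Fin 3) : ℝ :=
  (d (R i) (R (i + 1)) + d (R i) (R (i + 2)) - d (R (i + 1)) (R (i + 2))) / 2

/-- **(b) TRIISO.** -/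
theorem triIso [Finite V] {G : SimpleGraph V} {c : ℝ} (hc : 0 < c) (hE : EdgeExact G c)
    {d : V → V → ℝ} (hd : IsMet d) (hG : Gen G d) {R : Fin 3 → V}
    (hR : ∀ i j, i ≠ j → G.Adj (R i) (R j))
    (hC : ∀ x y t, (∀ i, d x (R i) ≤ gp d R i + t) → (∀ i, d y (R i) ≤ gp d R i + t) →
      d x y ≤ 2 * t) :
    ∃ F : V → V → ℝ, IsL1 F ∧ (∀ i j, F (R i) (R j) = d (R i) (R j)) ∧
      (∀ x y, c / 6 * d x y ≤ F x y) ∧ ∀ x y, F x y ≤ d x y := by
  have g0 : gp d R 0 = (d (R 0) (R 1) + d (R 0) (R 2) - d (R 1) (R 2)) / 2 := rfl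
  have g1 : gp d R 1 = (d (R 1) (R 2) + d (R 1) (R 0) - d (R 2) (R 0)) / 2 := rfl
  have g2 : gp d R 2 = (d (R 2) (R 0) + d (R 2) (R 1) - d (R 0) (R 1)) / 2 := rfl
  have s10 := hd.symm (R 1) (R 0)
  have s20 := hd.symm (R 2) (R 0)
  have s21 := hd.symm (R 2) (R 1)
  obtain ⟨F, hF, h01, h02, h12, hl, hu⟩ := tri_abe hc hE hd hG (hR 0 1 (by decide))
    (hR 0 2 (by decide)) (hR 1 2 (by decide)) (P := gp d R 0) (Q := gp d R 1) (S := gp d R 2)
    (by rw [g0, g1]; linarith) (by rw [g0, g2]; linarith) (by rw [g1, g2]; linarith)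
    (fun x y t x0 x1 x2 y0 y1 y2 => hC x y t
      (fun i => by fin_cases i; exacts [x0, x1, x2]) fun i => by fin_cases i; exacts [y0, y1, y2])
  refine ⟨F, hF, fun i j => ?_, hl, hu⟩
  fin_cases i <;> fin_cases j
  · exact (hF.self _).trans (hd.self _).symm
  · exact h01
  · exact h02
  · exact (hF.symm _ _).trans (h01.trans (hd.symm _ _))
  · exact (hF.self _).trans (hd.self _).symm
  · exact h12
  · exact (hF.symm _ _).trans (h02.trans (hd.symm _ _))
  · exact (hF.symm _ _).trans (h12.trans (hd.symm _ _))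
  · exact (hF.self _).trans (hd.self _).symm

end Vale.Agent.P235.K5.H237
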