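import Vale.Agent.P235.K5.H237.TriRho
import Vale.Agent.P235.K5.Cap

set_option autoImplicit false

/-!
# P235, K5: the literals TRIISO and SHORT3
-/

namespace Vale.Agent.P235.K5.H237

open SimpleGraph Vale.Agent.P235 Vale.Agent.P235.H134 Vale.Agent.P235.H56
open Vale.Agent.P235.H341W (capG)

/-- TRIISO from `EdgeExact` (no degenerate metrics needed). -/
theorem triIsoE {V : Type} [Finite V] {G : SimpleGraph V} {c : ℝ} (hc : 0 < c)
    (hE : EdgeExact G c) {d : V → V → ℝ} (hd : IsMet d) (hG : Gen G d) {R : Fin 3 → V}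
    (hR : TriAdj G R) (hno : ¬ IsMinor K33 (capG G (Set.range R))) :
    ∃ F : V → V → ℝ, IsL1 F ∧ (∀ i j, F (R i) (R j) = d (R i) (R j)) ∧
      (∀ x y, c / 6 * d x y ≤ F x y) ∧ ∀ x y, F x y ≤ d x y := by
  refine triIso hc hE hd hG hR fun x y t hx hy => ?_
  have h := H558.centre hd hG R hno (gp d R) ?_ t t x y hx hy
  · linarith
  · have s10 := hd.symm (R 1) (R 0)
    have s20 := hd.symm (R 2) (R 0)
    have s21 := hd.symm (R 2) (R 1)
    have g0 : gp d R 0 = (d (R 0) (R 1) + d (R 0) (R 2) - d (R 1) (R 2)) / 2 := rfl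
    have g1 : gp d R 1 = (d (R 1) (R 2) + d (R 1) (R 0) - d (R 2) (R 0)) / 2 := rfl
    have g2 : gp d R 2 = (d (R 2) (R 0) + d (R 2) (R 1) - d (R 0) (R 1)) / 2 := rfl
    have h01 : gp d R 0 + gp d R 1 ≤ d (R 0) (R 1) := by
      rw [g0, g1]
      linarith
    have h02 : gp d R 0 + gp d R 2 ≤ d (R 0) (R 2) := by
      rw [g0, g2]
      linarith
    have h12 : gp d R 1 + gp d R 2 ≤ d (R 1) (R 2) := by
      rw [g1, g2]
      linarith
    intro i j hij
    fin_cases i <;> fin_cases j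
    · exact absurd rfl hij
    · exact h01
    · exact h02
    · show gp d R 1 + gp d R 0 ≤ d (R 1) (R 0)
      linarith
    · exact absurd rfl hij
    · exact h12
    · show gp d R 2 + gp d R 0 ≤ d (R 2) (R 0)
      linarith
    · show gp d R 2 + gp d R 1 ≤ d (R 2) (R 1)
      linarith
    · exact absurd rfl hij

theorem triIsoStmt : TriIsoStmt := by
  intro V _ G c hc hE d hd hG R hR hno
  refine triIsoE hc (fun ρ hρ hGρ s t hst => ?_) hd hG hR hno
  exact hE ρ ⟨hρ.self, hρ.nonneg, hρ.symm, hρ.tri⟩ hGρ s t hst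

theorem root_of_met {V : Type} {d : V → V → ℝ} {R : Fin 3 → V} {ρ : Fin 3 → Fin 3 → ℝ}
    (hρ : IsMet ρ) (hle : ∀ i j, ρ i j ≤ d (R i) (R j)) : Root d R ρ :=
  ⟨hρ.self, hρ.pos, hρ.symm, hρ.tri, hle⟩

theorem short3 : Short3Stmt := by
  intro V G d hd hG R hR ρ hρ hle
  have hr := root_of_met hρ hle
  exact ⟨dR d R ρ, dR_isMet hd hr, dR_gen hG hR hd hr, dR_root hd hr, dR_le, dR_cases⟩

end Vale.Agent.P235.K5.H237
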