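import Vale.Agent.P235.K5.H237.TriIso

set_option autoImplicit false

/-!
# P235, K5 (b'): the triangle with prescribed root lengths

`dR d R ρ` is the metric `d` with the sides of the triangle `R` shortened to `ρ`.
-/

namespace Vale.Agent.P235.K5.H237

open Vale.Agent.P235

variable {V : Type}

/-- A metric on the three indices which is at most `d` on `R`. -/
structure Root (d : V → V → ℝ) (R : Fin 3 → V) (ρ : Fin 3 → Fin 3 → ℝ) : Prop where
  self : ∀ i, ρ i i = 0
  pos : ∀ i j, i ≠ j → 0 < ρ i j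
  symm : ∀ i j, ρ i j = ρ j i
  tri : ∀ i j k, ρ i k ≤ ρ i j + ρ j k
  le : ∀ i j, ρ i j ≤ d (R i) (R j)

/-- The metric `d` with the sides of `R` shortened to `ρ`. -/
noncomputable def dR (d : V → V → ℝ) (R : Fin 3 → V) (ρ : Fin 3 → Fin 3 → ℝ) (x y : V) : ℝ :=
  min (d x y) (Finset.univ.inf' Finset.univ_nonempty
    fun p : Fin 3 × Fin 3 => d x (R p.1) + ρ p.1 p.2 + d (R p.2) y)

section

variable {d : V → V → ℝ} {R : Fin 3 → V} {ρ : Fin 3 → Fin 3 → ℝ}

lemma dR_le (x y : V) : dR d R ρ x y ≤ d x y := min_le_left _ _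

lemma dR_le' (x y : V) (i j : Fin 3) : dR d R ρ x y ≤ d x (R i) + ρ i j + d (R j) y :=
  (min_le_right _ _).trans (Finset.inf'_le
    (fun p : Fin 3 × Fin 3 => d x (R p.1) + ρ p.1 p.2 + d (R p.2) y) (Finset.mem_univ (i, j)))

lemma le_dR {x y : V} {t : ℝ} (h1 : t ≤ d x y)
    (h2 : ∀ i j, t ≤ d x (R i) + ρ i j + d (R j) y) : t ≤ dR d R ρ x y :=
  le_min h1 (Finset.le_inf' _ _ fun p _ => h2 p.1 p.2)

lemma dR_cases (x y : V) : dR d R ρ x y = d x y ∨
    ∃ i j, dR d R ρ x y = d x (R i) + ρ i j + d (R j) y := by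
  rcases min_choice (d x y) (Finset.univ.inf' Finset.univ_nonempty
    fun p : Fin 3 × Fin 3 => d x (R p.1) + ρ p.1 p.2 + d (R p.2) y) with h | h
  · exact Or.inl h
  · right
    obtain ⟨p, _, hp⟩ := Finset.exists_mem_eq_inf' Finset.univ_nonempty
      fun p : Fin 3 × Fin 3 => d x (R p.1) + ρ p.1 p.2 + d (R p.2) y
    exact ⟨p.1, p.2, h.trans hp⟩

lemma Root.nonneg (hρ : Root d R ρ) (i j : Fin 3) : 0 ≤ ρ i j := by
  by_cases h : i = j
  · rw [h, hρ.self]
  · exact (hρ.pos i j h).le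

lemma dR_isMet (hd : IsMet d) (hρ : Root d R ρ) : IsMet (dR d R ρ) := by
  have hn : ∀ x y, 0 ≤ dR d R ρ x y := fun x y => le_dR (hd.nonneg x y) fun i j => by
    have h1 := hd.nonneg x (R i)
    have h2 := hd.nonneg (R j) y
    have h3 := hρ.nonneg i j
    linarith
  have hs : ∀ x y, dR d R ρ x y ≤ dR d R ρ y x := fun x y =>
    le_dR ((dR_le x y).trans_eq (hd.symm x y)) fun i j => by
      have h1 := dR_le' (d := d) (R := R) (ρ := ρ) x y j i
      rw [hρ.symm j i, hd.symm x (R j), hd.symm (R i) y] at h1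
      linarith
  constructor
  · intro x
    exact le_antisymm ((dR_le x x).trans_eq (hd.self x)) (hn x x)
  · intro x y hxy
    rcases dR_cases (d := d) (R := R) (ρ := ρ) x y with h | ⟨i, j, h⟩
    · rw [h]
      exact hd.pos x y hxy
    · rw [h]
      have h1 := hd.nonneg x (R i)
      have h2 := hd.nonneg (R j) y
      by_cases hij : i = j
      · subst hij
        have h3 := hd.tri x (R i) y
        have h4 := hd.pos x y hxy
        rw [hρ.self]
        linarith
      · have h3 := hρ.pos i j hij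
        linarith
  · intro x y
    exact le_antisymm (hs x y) (hs y x)
  · intro x y z
    rcases dR_cases (d := d) (R := R) (ρ := ρ) x y with h | ⟨i, j, h⟩
    · rcases dR_cases (d := d) (R := R) (ρ := ρ) y z with h' | ⟨k, l, h'⟩
      · rw [h, h']
        exact (dR_le x z).trans (hd.tri x y z)
      · rw [h, h']
        have h1 := dR_le' (d := d) (R := R) (ρ := ρ) x z k l
        have h2 := hd.tri x y (R k)
        linarith
    · rcases dR_cases (d := d) (R := R) (ρ := ρ) y z with h' | ⟨k, l, h'⟩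
      · rw [h, h']
        have h1 := dR_le' (d := d) (R := R) (ρ := ρ) x z i j
        have h2 := hd.tri (R j) y z
        linarith
      · rw [h, h']
        have h1 := dR_le' (d := d) (R := R) (ρ := ρ) x z i l
        have h2 := hρ.tri i j l
        have h3 := hρ.tri j k l
        have h4 := hρ.le j k
        have h5 := hd.tri (R j) y (R k)
        linarith

lemma dR_gen {G : SimpleGraph V} (hG : Gen G d)
    (hR : ∀ i j, i ≠ j → G.Adj (R i) (R j)) (hd : IsMet d) (hρ : Root d R ρ) :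
    Gen G (dR d R ρ) := by
  intro f hf x y
  have h1 : ∀ x y, |f x - f y| ≤ d x y :=
    hG f fun u v huv => (hf u v huv).trans (dR_le u v)
  refine le_dR (h1 x y) fun i j => ?_
  have h2 : |f (R i) - f (R j)| ≤ ρ i j := by
    by_cases hij : i = j
    · rw [hij, sub_self, abs_zero, hρ.self]
    · refine (hf _ _ (hR i j hij)).trans ?_
      have h3 := dR_le' (d := d) (R := R) (ρ := ρ) (R i) (R j) i j
      rw [hd.self, hd.self] at h3
      linarith
  have h3 := abs_sub_le (f x) (f (R i)) (f y)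
  have h4 := abs_sub_le (f (R i)) (f (R j)) (f y)
  have h5 := h1 x (R i)
  have h6 := h1 (R j) y
  linarith

lemma dR_root (hd : IsMet d) (hρ : Root d R ρ) (i j : Fin 3) :
    dR d R ρ (R i) (R j) = ρ i j := by
  apply le_antisymm
  · have h3 := dR_le' (d := d) (R := R) (ρ := ρ) (R i) (R j) i j
    rw [hd.self, hd.self] at h3
    linarith
  · refine le_dR (hρ.le i j) fun k l => ?_
    have h1 := hρ.le i k
    have h2 := hρ.le l j
    have h3 := hρ.tri i k j
    have h4 := hρ.tri k l j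
    linarith

/-- Gromov products of the prescribed root lengths. -/
noncomputable def gpρ (ρ : Fin 3 → Fin 3 → ℝ) (i : Fin 3) : ℝ :=
  (ρ i (i + 1) + ρ i (i + 2) - ρ (i + 1) (i + 2)) / 2

/-- **The triangle with prescribed root lengths.** -/
theorem triRho [Finite V] {G : SimpleGraph V} {c : ℝ} (hc : 0 < c) (hE : EdgeExact G c)
    (hd : IsMet d) (hG : Gen G d) (hR : ∀ i j, i ≠ j → G.Adj (R i) (R j)) (hρ : Root d R ρ)
    (hC : ∀ x y t, (∀ i, dR d R ρ x (R i) ≤ gpρ ρ i + t) →
      (∀ i, dR d R ρ y (R i) ≤ gpρ ρ i + t) → dR d R ρ x y ≤ 2 * t) :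
    ∃ F : V → V → ℝ, IsL1 F ∧ (∀ i j, F (R i) (R j) = ρ i j) ∧
      (∀ x y, c / 6 * dR d R ρ x y ≤ F x y) ∧ ∀ x y, F x y ≤ dR d R ρ x y := by
  have hgp : ∀ i, gp (dR d R ρ) R i = gpρ ρ i := by
    intro i
    unfold gp gpρ
    rw [dR_root hd hρ, dR_root hd hρ, dR_root hd hρ]
  obtain ⟨F, h1, h2, h3, h4⟩ := triIso hc hE (dR_isMet hd hρ) (dR_gen hG hR hd hρ) hR
    (by simpa only [hgp] using hC)
  exact ⟨F, h1, fun i j => (h2 i j).trans (dR_root hd hρ i j), h3, h4⟩

end

end Vale.Agent.P235.K5.H237
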